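import Crest.Agent.N49.La.Mv

/-!
# Row 49, tools (helper73): a homomorphism from a fine lattice that is often near a discrete
subgroup is rational up to a small error (dimension-free)
-/

set_option autoImplicit false
open Finset MeasureTheory

namespace Crest.Agent.N49.To

open Crest.Agent.N49.La

/-- sizes in a real vector space (an extended seminorm, as a relation) -/
structure Sz (V : Type*) [AddCommGroup V] [Module ℝ V] where
  Bd : V → ℝ → Prop
  zero : Bd 0 0
  add : ∀ {v w a b}, Bd v a → Bd w b → Bd (v + w) (a + b)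
  smul : ∀ {v a} (t : ℝ), Bd v a → Bd (t • v) (|t| * a)
  mono : ∀ {v a b}, Bd v a → a ≤ b → Bd v b
  cl : ∀ {v a}, (∀ η, 0 < η → Bd v (a + η)) → Bd v a

/-- the size given by a norm -/
def Sz.norm (V : Type*) [SeminormedAddCommGroup V] [NormedSpace ℝ V] : Sz V where
  Bd v a := ‖v‖ ≤ a
  zero := norm_zero.le
  add h k := norm_add_le_of_le h k
  smul t h := (norm_smul t _).le.trans (mul_le_mul_of_nonneg_left h (abs_nonneg t))
  mono := le_trans
  cl h := le_of_forall_pos_le_add h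

variable {V : Type*} [AddCommGroup V] [Module ℝ V] {ι : Type*} [Fintype ι] [DecidableEq ι]

theorem Sz.sub (S : Sz V) {v w : V} {a b : ℝ} (h : S.Bd v a) (k : S.Bd w b) :
    S.Bd (v - w) (a + b) := by
  simpa [sub_eq_add_neg] using S.add h (S.smul (-1) k)

/-- fineness of the lattice -/
def fine (N : Seminorm ℝ (ι → ℝ)) : ℝ := ∑ i, N (Pi.single i 1)

variable {N : Seminorm ℝ (ι → ℝ)}

theorem fine_nonneg : 0 ≤ fine N := sum_nonneg fun _ _ => apply_nonneg _ _

theorem cube_le {x : ι → ℝ} {c : ℝ} (h : ∀ i, |x i| ≤ c) : N x ≤ c * fine N := by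
  rw [pi_eq_sum_univ' x, fine, mul_sum]
  refine (le_sum_of_subadditive N (map_zero N).le (map_add_le_add N) _ _).trans
    (sum_le_sum fun i _ => ?_)
  rw [map_smul_eq_mul]
  exact mul_le_mul_of_nonneg_right (h i) (apply_nonneg _ _)

/-- the lattice path from `0` to `u` -/
noncomputable def pth (u : ι → ℤ) (k j : ℕ) : ι → ℤ := fun i => ⌊(j / k : ℝ) * u i⌋

omit [Fintype ι] [DecidableEq ι] in
theorem pth_zero (u : ι → ℤ) (k : ℕ) : pth u k 0 = 0 := funext fun i => by simp [pth]
omit [Fintype ι] [DecidableEq ι] in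
theorem pth_self (u : ι → ℤ) {k : ℕ} (hk : 0 < k) : pth u k k = u := funext fun i => by
  rw [pth, div_self (Nat.cast_ne_zero.2 hk.ne'), one_mul, Int.floor_intCast]

theorem pth_le (u : ι → ℤ) {k j : ℕ} (h : j ≤ k) : N (ci (pth u k j)) ≤ N (ci u) + fine N := by
  have e : ci (pth u k j) = (j / k : ℝ) • ci u - fun i => Int.fract ((j / k : ℝ) * u i) :=
    funext fun i => by
      simp only [pth, Int.fract, ci_apply, Pi.sub_apply, Pi.smul_apply, smul_eq_mul]; ring
  rw [e]
  refine (map_sub_le_add _ _ _).trans (add_le_add ?_ ((cube_le fun i =>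
    (Int.abs_fract.trans_lt (Int.fract_lt_one _)).le).trans_eq (one_mul _)))
  rw [map_smul_eq_mul, Real.norm_of_nonneg (by positivity)]
  exact mul_le_of_le_one_left (apply_nonneg _ _)
    (div_le_one_of_le₀ (Nat.cast_le.2 h) (Nat.cast_nonneg _))

theorem pth_step (u : ι → ℤ) (k j : ℕ) :
    N (ci (pth u k (j + 1) - pth u k j)) ≤ N (ci u) / k + fine N := by
  have e : ci (pth u k (j + 1) - pth u k j) = (1 / k : ℝ) • ci u + fun i =>
      Int.fract ((j / k : ℝ) * u i) - Int.fract ((((j + 1 : ℕ) : ℝ) / k : ℝ) * u i) :=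
    funext fun i => by
      simp only [pth, Int.fract, ci_apply, Pi.sub_apply, Pi.add_apply, Pi.smul_apply, smul_eq_mul]
      push_cast; ring
  rw [e]
  refine (map_add_le_add _ _ _).trans (add_le_add ?_ ((cube_le fun i => ?_).trans_eq (one_mul _)))
  · rw [map_smul_eq_mul, Real.norm_of_nonneg (by positivity), one_div, inv_mul_eq_div]
  · rw [abs_le]
    constructor <;> linarith [Int.fract_nonneg ((j / k : ℝ) * u i),
      Int.fract_lt_one ((j / k : ℝ) * u i), Int.fract_nonneg ((((j + 1 : ℕ) : ℝ) / k : ℝ) * u i),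
      Int.fract_lt_one ((((j + 1 : ℕ) : ℝ) / k : ℝ) * u i)]

omit [Fintype ι] [DecidableEq ι] in
theorem pth_abs (u : ι → ℤ) {k : ℕ} (j : ℕ) (i : ι) (h : |(u i : ℝ)| ≤ k) :
    |(pth u k (j + 1) - pth u k j) i| ≤ 1 := by
  have a : |(u i : ℝ) / k| ≤ 1 := by
    rw [abs_div, Nat.abs_cast]; exact div_le_one_of_le₀ h (Nat.cast_nonneg _)
  have e : (((j + 1 : ℕ) : ℝ) / k : ℝ) * u i = (j / k : ℝ) * u i + u i / k := by push_cast; ring
  rw [abs_le] at a ⊢
  rw [Pi.sub_apply, pth, pth, e]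
  have b := Int.floor_le_floor (show (j / k : ℝ) * u i + u i / k ≤ (j / k : ℝ) * u i + 1 by linarith)
  have c := Int.floor_le_floor (show (j / k : ℝ) * u i - 1 ≤ (j / k : ℝ) * u i + u i / k by linarith)
  rw [Int.floor_add_one] at b; rw [Int.floor_sub_one] at c
  omega

/-- a locally additive map on a fine lattice is the restriction of a homomorphism -/
theorem loc_fine {H : Type*} [AddCommGroup H] (ψ : (ι → ℤ) → H) {η : ℝ} (hη : fine N ≤ η)
    (h : ∀ u v, N (ci u) ≤ η → N (ci v) ≤ η → ψ (u + v) = ψ u + ψ v) :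
    ∃ g : (ι → ℤ) →+ H, ∀ u, N (ci u) + fine N ≤ η → g u = ψ u := by
  have cu : ∀ c : ι → ℤ, (∀ i, |c i| ≤ 1) → N (ci c) ≤ η := fun c hc =>
    ((cube_le fun i => by rw [ci_apply]; exact_mod_cast hc i).trans_eq (one_mul _)).trans hη
  have z : ψ 0 = 0 := by simpa using h 0 0 (cu 0 (by simp)) (cu 0 (by simp))
  have sg : ∀ i (a : ℤ), |a| ≤ 1 → ∀ j, |(Pi.single i a : ι → ℤ) j| ≤ 1 := fun i a ha j => by
    rw [Pi.single_apply]; split_ifs <;> simp [ha]
  let g : (ι → ℤ) →+ H := ⟨⟨fun u => ∑ i, u i • ψ (Pi.single i 1), by simp⟩, fun u v => by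
    simp [add_zsmul, sum_add_distrib]⟩
  have g1 : ∀ i (a : ℤ), |a| ≤ 1 → g (Pi.single i a) = ψ (Pi.single i a) := fun i a ha => by
    have : g (Pi.single i a) = a • ψ (Pi.single i 1) := by
      simp [g, Pi.single_apply, ite_smul]
    rw [this]
    obtain rfl | rfl | rfl : a = -1 ∨ a = 0 ∨ a = 1 := by rw [abs_le] at ha; omega
    · have := h (Pi.single i 1) (Pi.single i (-1)) (cu _ (sg i 1 (by simp))) (cu _ (sg i _ ha))
      rw [← Pi.single_add, add_neg_cancel, Pi.single_zero, z] at this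
      rw [neg_one_zsmul, neg_eq_of_add_eq_zero_right this.symm]
    · simp [z]
    · simp
  have g2 : ∀ c : ι → ℤ, (∀ i, |c i| ≤ 1) → g c = ψ c := fun c hc => by
    have : ∀ s : Finset ι, g (∑ i ∈ s, Pi.single i (c i)) = ψ (∑ i ∈ s, Pi.single i (c i)) := by
      intro s
      induction s using Finset.induction_on with
      | empty => simp [z]
      | insert a s ha ih =>
        rw [sum_insert ha, map_add, ih, g1 a _ (hc a), h _ _ (cu _ (sg a _ (hc a))) (cu _ fun j => by
          rw [Finset.sum_apply, sum_pi_single]; split_ifs <;> simp [hc])]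
    simpa only [univ_sum_single] using this univ
  refine ⟨g, fun u hu => ?_⟩
  obtain ⟨k, k0, hk⟩ : ∃ k : ℕ, 0 < k ∧ ∀ i, |(u i : ℝ)| ≤ k := by
    obtain ⟨k, hk⟩ := exists_nat_ge ‖ci u‖
    exact ⟨k + 1, k.succ_pos, fun i => (norm_le_pi_norm (ci u) i).trans (by push_cast; linarith)⟩
  have : ∀ j ≤ k, g (pth u k j) = ψ (pth u k j) := fun j hj => by
    induction j with
    | zero => rw [pth_zero, map_zero, z]
    | succ j ih =>
      have c := fun i => pth_abs u j i (hk i)
      rw [← add_sub_cancel (pth u k j) (pth u k (j + 1)), map_add, ih (by omega),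
        g2 _ c, h _ _ ((pth_le u (by omega)).trans hu) (cu _ c)]
  simpa only [pth_self u k0] using this k le_rfl

/-- a homomorphism that is small on a ball is small everywhere -/
theorem Sz.glob (S : Sz V) (E : (ι → ℤ) →+ V) {η ε : ℝ} (h0 : 0 < η) (hη : 2 * fine N ≤ η)
    (h : ∀ z, N (ci z) ≤ η → S.Bd (E z) ε) (hε : 0 ≤ ε) (u : ι → ℤ) :
    S.Bd (E u) (2 * ε / η * N (ci u)) := by
  have a : ∀ u, S.Bd (E u) ((2 * N (ci u) / η + 1) * ε) := fun u => by
    set k := ⌊2 * N (ci u) / η⌋₊ + 1 with hk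
    have k0 : (0 : ℝ) < k := by positivity
    have k1 : N (ci u) / k ≤ η / 2 := by
      have := (Nat.lt_floor_add_one (2 * N (ci u) / η)).le
      rw [div_le_iff₀ h0] at this
      rw [div_le_iff₀ k0, hk]; push_cast; linarith
    have : ∀ j : ℕ, S.Bd (E (pth u k j)) (j * ε) := fun j => by
      induction j with
      | zero => simpa [pth_zero] using S.zero
      | succ j ih =>
        have := S.add ih (h _ ((pth_step u k j).trans (by linarith)))
        rw [← map_add, add_sub_cancel] at this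
        exact S.mono this (by push_cast; linarith)
    have b := this k
    rw [pth_self u (Nat.succ_pos _)] at b
    refine S.mono b (mul_le_mul_of_nonneg_right ?_ hε)
    rw [hk]; push_cast
    exact add_le_add_left (Nat.floor_le (by positivity)) _
  refine S.cl fun τ hτ => ?_
  obtain ⟨m, hm⟩ := exists_nat_gt (ε / τ)
  have m0 : (0 : ℝ) < m := (div_nonneg hε hτ.le).trans_lt hm
  have b := S.smul (1 / m) (a ((m : ℤ) • u))
  rw [map_zsmul, ← Int.cast_smul_eq_zsmul ℝ, smul_smul, Int.cast_natCast, one_div_mul_cancel m0.ne',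
    one_smul, ci_zsmul, map_smul_eq_mul, Int.cast_natCast, Real.norm_natCast,
    abs_of_pos (by positivity)] at b
  refine S.mono b (le_trans (le_of_eq (by field_simp)) (add_le_add_right (b := ε / m) ?_ _))
  rw [div_le_iff₀ m0]; rw [div_lt_iff₀ hτ] at hm; linarith

/-- quasi-invariance of a law on the lattice -/
def QI (N : Seminorm ℝ (ι → ℝ)) (μ : Measure (ι → ℤ)) : Prop :=
  ∀ (S : Set (ι → ℤ)) z, μ.real S ≤ μ.real ((· + z) '' S) + N (ci z)

omit [DecidableEq ι] in
/-- translates of a large set collide -/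
theorem collide {μ : Measure (ι → ℤ)} [IsProbabilityMeasure μ] (h : QI N μ) {S : Set (ι → ℤ)}
    {δ : ℝ} (hS : δ ≤ μ.real S) {K : ℕ} (hK : 2 < K * δ) {z : ι → ℤ} (hz : K * N (ci z) ≤ δ / 2) :
    ∃ n : ℕ, 1 ≤ n ∧ n ≤ K ∧ ∃ s ∈ S, s + (n : ℤ) • z ∈ S := by
  by_contra c
  have d : ∀ n n' : ℕ, n < n' → n' < K →
      Disjoint ((· + (n : ℤ) • z) '' S) ((· + (n' : ℤ) • z) '' S) := fun n n' a b => by
    rw [Set.disjoint_left]
    rintro _ ⟨s, hs, rfl⟩ ⟨s', hs', e⟩
    refine c ⟨n' - n, by omega, by omega, s', hs', ?_⟩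
    rw [Nat.cast_sub a.le, sub_smul, ← add_sub_assoc, show s' + (n' : ℤ) • z = _ from e,
      add_sub_cancel_right]
    exact hs
  have a := measureReal_biUnion_finset (μ := μ) (s := range K)
    (f := fun n : ℕ => (· + (n : ℤ) • z) '' S) (fun n hn n' hn' ne => by
      rcases lt_or_gt_of_ne ne with k | k
      exacts [d n n' k (mem_range.1 hn'), (d n' n k (mem_range.1 hn)).symm])
    fun _ _ => MeasurableSet.of_discrete
  have b := card_nsmul_le_sum (range K) (fun n : ℕ => μ.real ((· + (n : ℤ) • z) '' S)) (δ / 2)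
    fun n hn => by
      have := h S ((n : ℤ) • z)
      rw [ci_zsmul, map_smul_eq_mul, Int.cast_natCast, Real.norm_natCast] at this
      linarith [mul_le_mul_of_nonneg_right (Nat.cast_le.2 (mem_range.1 hn).le : (n : ℝ) ≤ K)
        (apply_nonneg N (ci z))]
  rw [← a, card_range, nsmul_eq_mul] at b
  linarith [b.trans measureReal_le_one]

/-- **the vector lemma** -/
theorem bd1 (S : Sz V) (Z : AddSubgroup V) {σ : ℝ} (hZ : ∀ v ∈ Z, ∀ c < σ, S.Bd v c → v = 0)
    {μ : Measure (ι → ℤ)} [IsProbabilityMeasure μ] (h : QI N μ) (ξ : (ι → ℤ) →+ V) {δ ε : ℝ}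
    (hδ : 0 < δ) (hε : 0 ≤ ε) (hS : δ ≤ μ.real {u | ∃ a ∈ Z, S.Bd (ξ u - a) ε})
    (hβ : 100 * fine N ≤ δ ^ 3) (hσ : 200 * ε < σ * δ ^ 3) :
    ∃ q : ℕ, 1 ≤ q ∧ (q : ℝ) ≤ 3 / δ ∧ ∃ I : (ι → ℤ) →+ V, (∀ u, I u ∈ Z) ∧
      ∀ u, S.Bd ((q : ℝ) • ξ u - I u) (300 * ε / δ ^ 3 * N (ci u)) := by
  have δ1 : δ ≤ 1 := hS.trans measureReal_le_one
  set K := ⌊2 / δ⌋₊ + 1 with hK
  have K0 : (0 : ℝ) < K := by positivity
  have K1 : 2 < K * δ := by
    rw [← div_lt_iff₀ hδ, hK]; push_cast; exact Nat.lt_floor_add_one _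
  have K2 : K * δ ≤ 3 := by
    have := Nat.floor_le (show 0 ≤ 2 / δ by positivity)
    rw [le_div_iff₀ hδ] at this
    rw [hK]; push_cast; linarith
  set η := δ ^ 2 / 12 with hη
  have η0 : 0 < η := by positivity
  have β0 := fine_nonneg (N := N)
  have β1 : (K + 3) * fine N ≤ η := by
    refine le_of_mul_le_mul_right ?_ hδ
    nlinarith [mul_le_mul_of_nonneg_right (show K * δ + 3 * δ ≤ 6 by linarith) β0]
  have ex : ∀ z, ∃ (n : ℕ) (r : V), 1 ≤ n ∧ n ≤ K ∧ (n : ℝ) • r ∈ Z ∧
      (N (ci z) ≤ 2 * η → S.Bd (ξ z - r) (2 * ε)) := fun z => by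
    by_cases hz : N (ci z) ≤ 2 * η
    swap
    · exact ⟨1, 0, le_rfl, by omega, by simp, fun k => absurd k hz⟩
    obtain ⟨n, n1, n2, s, ⟨a, ha, a1⟩, b, hb, b1⟩ := collide h hS K1 (z := z) (by
      nlinarith [mul_le_mul_of_nonneg_left hz K0.le])
    have n0 : (1 : ℝ) ≤ n := by exact_mod_cast n1
    refine ⟨n, (1 / n : ℝ) • (b - a), n1, n2, ?_, fun _ => ?_⟩
    · rw [smul_smul, mul_one_div_cancel (by positivity), one_smul]; exact Z.sub_mem hb ha
    · have := S.smul (1 / n) (S.sub b1 a1)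
      rw [map_add, map_zsmul, ← Int.cast_smul_eq_zsmul ℝ, Int.cast_natCast,
        show ξ s + (n : ℝ) • ξ z - b - (ξ s - a) = (n : ℝ) • ξ z - (b - a) by abel, smul_sub,
        smul_smul, one_div_mul_cancel (by positivity), one_smul, abs_of_pos (by positivity)] at this
      exact S.mono this (by nlinarith [div_le_one_of_le₀ n0 (by positivity : (0 : ℝ) ≤ n)])
  choose n r n1 n2 rZ rB using ex
  have mZ : ∀ (k : ℕ) v, v ∈ Z → (k : ℝ) • v ∈ Z := fun k v hv => by
    rw [Nat.cast_smul_eq_nsmul]; exact Z.nsmul_mem hv k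
  obtain ⟨g, hg⟩ := loc_fine (N := N) r (η := η) (by nlinarith) fun u v hu hv => by
    have a := S.sub (S.add (rB u (by linarith)) (rB v (by linarith))) (rB (u + v) (by
      rw [map_add]; linarith [map_add_le_add N (ci u) (ci v)]))
    rw [map_add, show ξ u - r u + (ξ v - r v) - (ξ u + ξ v - r (u + v)) = r (u + v) - (r u + r v)
      by abel] at a
    have p : (0 : ℝ) < (n u * n v * n (u + v) : ℕ) := by
      have := n1 u; have := n1 v; have := n1 (u + v); positivity
    have p2 : ((n u * n v * n (u + v) : ℕ) : ℝ) ≤ K ^ 3 := by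
      exact_mod_cast (Nat.mul_le_mul (Nat.mul_le_mul (n2 u) (n2 v)) (n2 (u + v))).trans_eq (by ring)
    have b := hZ _ ?_ _ ?_ (S.smul ((n u * n v * n (u + v) : ℕ) : ℝ) a)
    · exact sub_eq_zero.1 ((smul_eq_zero.1 b).resolve_left p.ne')
    · have := Z.sub_mem (mZ (n u * n v) _ (rZ (u + v)))
        (Z.add_mem (mZ (n v * n (u + v)) _ (rZ u)) (mZ (n u * n (u + v)) _ (rZ v)))
      convert this using 1
      push_cast; module
    · rw [abs_of_pos p]
      refine lt_of_mul_lt_mul_right (lt_of_le_of_lt ?_ hσ) (pow_pos hδ 3).le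
      have := pow_le_pow_left₀ (by positivity) K2 3
      rw [mul_pow] at this
      nlinarith [mul_le_mul_of_nonneg_right p2 (pow_pos hδ 3).le]
  have sm : ∀ u, N (ci u) + fine N ≤ η → n u • (QuotientAddGroup.mk' Z).comp g u = 0 :=
    fun u hu => by
      rw [AddMonoidHom.comp_apply, hg u hu, ← map_nsmul, ← Nat.cast_smul_eq_nsmul ℝ]
      exact (QuotientAddGroup.eq_zero_iff _).2 (rZ u)
  set f := (QuotientAddGroup.mk' Z).comp g with hf
  have od : ∀ x : f.range, ∃ k, 1 ≤ k ∧ k ≤ K ∧ k • x = 0 := by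
    rintro ⟨_, u, rfl⟩
    set u' : ι → ℤ := fun i => u i % n (Pi.single i 1)
    refine ⟨n u', n1 _, n2 _, Subtype.ext ?_⟩
    have e : u = u' + ∑ i, (u i / n (Pi.single i 1)) • n (Pi.single i 1) • Pi.single i 1 :=
      funext fun j => by
        simp [u', Finset.sum_apply, Pi.single_apply, mul_comm (u j / _), Int.emod_add_mul_ediv]
    have e2 : f u = f u' := by
      rw [e, map_add, map_sum, sum_eq_zero fun i _ => ?_, add_zero]
      rw [map_zsmul, map_nsmul, sm _ ?_, smul_zero]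
      have := cube_le (N := N) (x := ci (Pi.single i 1)) (c := 1) fun j => by
        rw [ci_apply, Pi.single_apply]; split_ifs <;> simp
      nlinarith
    change n u' • f u = 0
    rw [e2]
    refine sm u' ?_
    have := cube_le (N := N) (x := ci u') (c := K) fun j => by
      have p : (0 : ℤ) < n (Pi.single j 1) := by exact_mod_cast n1 _
      have := Int.emod_nonneg (u j) p.ne'; have := Int.emod_lt_of_pos (u j) p
      have := n2 (Pi.single j 1)
      rw [ci_apply, ← Int.cast_abs]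
      exact_mod_cast (by rw [abs_le]; simp only [u']; omega : |u' j| ≤ (K : ℤ))
    linarith
  have ee : AddMonoid.ExponentExists f.range := ⟨K.factorial, K.factorial_pos, fun x => by
    obtain ⟨k, a, b, c⟩ := od x
    obtain ⟨m, hm⟩ := Nat.dvd_factorial a b
    rw [hm, mul_nsmul, c, smul_zero]⟩
  obtain ⟨x, hx⟩ := AddMonoid.exists_addOrderOf_eq_exponent ee
  obtain ⟨k, a, b, c⟩ := od x
  have qK : (AddMonoid.exponent f.range : ℝ) ≤ K := by
    exact_mod_cast (hx ▸ addOrderOf_le_of_nsmul_eq_zero a c).trans b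
  refine ⟨AddMonoid.exponent f.range, ee.exponent_pos, by rw [le_div_iff₀ hδ]; nlinarith,
    AddMonoid.exponent f.range • g, fun u => ?_, fun u => ?_⟩
  · have := congrArg Subtype.val (AddMonoid.exponent_nsmul_eq_zero (⟨f u, u, rfl⟩ : f.range))
    exact (QuotientAddGroup.eq_zero_iff _).1 this
  · have := S.glob (N := N) (AddMonoid.exponent f.range • (ξ - g)) (η := η / 2) (ε := K * (2 * ε))
      (by positivity) (by nlinarith) (fun z hz => by
        rw [AddMonoidHom.nsmul_apply, AddMonoidHom.sub_apply, hg z (by nlinarith),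
          ← Nat.cast_smul_eq_nsmul ℝ]
        refine S.mono (S.smul _ (rB z (by linarith))) ?_
        rw [Nat.abs_cast]; exact mul_le_mul_of_nonneg_right qK (by positivity)) (by positivity) u
    rw [AddMonoidHom.nsmul_apply, AddMonoidHom.sub_apply, smul_sub] at this
    rw [AddMonoidHom.nsmul_apply, Nat.cast_smul_eq_nsmul]
    refine S.mono this (mul_le_mul_of_nonneg_right ?_ (apply_nonneg _ _))
    rw [hη, div_le_div_iff₀ (by positivity) (by positivity)]
    nlinarith [mul_le_mul_of_nonneg_right K2 (mul_nonneg hε (sq_nonneg δ))]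

end Crest.Agent.N49.To
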