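import Mathlib

/-!
# Row 49, tools (helper73): pigeonholing into cells, sizes of Bohr sets
-/

set_option autoImplicit false
open Finset

namespace Crest.Agent.N49.To

/-- a large fibre -/
theorem exists_fibre {α β : Type*} [DecidableEq β] (A : Finset α) (f : α → β) {B : Finset β}
    (h : ∀ a ∈ A, f a ∈ B) :
    ∃ A' ⊆ A, #A ≤ #B * #A' ∧ ∀ a ∈ A', ∀ b ∈ A', f a = f b := by
  rcases B.eq_empty_or_nonempty with rfl | hB
  · exact ⟨∅, empty_subset _, by simp [eq_empty_of_forall_notMem fun a k => notMem_empty _ (h a k)],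
      by simp⟩
  obtain ⟨y, -, k⟩ := exists_max_image B (fun y => #(A.filter (f · = y))) hB
  refine ⟨A.filter (f · = y), filter_subset _ _, ?_, fun a ha b hb =>
    (mem_filter.1 ha).2.trans (mem_filter.1 hb).2.symm⟩
  rw [card_eq_sum_card_fiberwise h]
  exact sum_le_card_nsmul _ _ _ k

theorem floor_mem {x : ℝ} {M : ℕ} (h0 : 0 ≤ x) (h1 : x < 1) (hM : 0 < M) :
    ⌊x * M⌋₊ ∈ range M := by
  have : (0 : ℝ) < M := by exact_mod_cast hM
  exact mem_range.2 ((Nat.floor_lt (by positivity)).2 (by nlinarith))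

theorem abs_sub_le_of_floor {x y : ℝ} {M : ℕ} (hx : 0 ≤ x) (hy : 0 ≤ y) (hM : 0 < M)
    (h : ⌊x * M⌋₊ = ⌊y * M⌋₊) : |x - y| ≤ 1 / M := by
  have m : (0 : ℝ) < M := by exact_mod_cast hM
  have a := Nat.floor_le (mul_nonneg hx m.le); have b := Nat.lt_floor_add_one (x * M)
  have c := Nat.floor_le (mul_nonneg hy m.le); have d := Nat.lt_floor_add_one (y * M)
  rw [h] at a b
  rw [le_div_iff₀ m, ← abs_of_pos m, ← abs_mul, abs_le]
  constructor <;> linarith

/-- cells of a torus-valued map -/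
theorem exists_cell {α ι : Type*} [Fintype ι] (A : Finset α) (θ : ι → α → ℝ) {M : ℕ} (hM : 0 < M) :
    ∃ A' ⊆ A, #A ≤ M ^ Fintype.card ι * #A' ∧ ∀ a ∈ A', ∀ b ∈ A', ∀ i,
      |θ i a - θ i b - round (θ i a - θ i b)| ≤ 1 / M := by
  classical
  obtain ⟨A', a, b, c⟩ := exists_fibre A (fun x i => ⌊Int.fract (θ i x) * M⌋₊)
    (B := Fintype.piFinset fun _ => range M) fun x _ => Fintype.mem_piFinset.2 fun i =>
      floor_mem (Int.fract_nonneg _) (Int.fract_lt_one _) hM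
  refine ⟨A', a, by simpa using b, fun x hx y hy i => (round_le _ (⌊θ i x⌋ - ⌊θ i y⌋)).trans ?_⟩
  refine le_trans (le_of_eq ?_) (abs_sub_le_of_floor (Int.fract_nonneg _) (Int.fract_nonneg _) hM
    (congrFun (c x hx y hy) i))
  simp only [Int.fract]; push_cast; ring_nf

/-- cells in an interval of integers -/
theorem cell {ι : Type*} [Fintype ι] {N : ℕ} {A : Finset ℤ} (hA : A ⊆ Ico 0 (N : ℤ)) (g : ι → ℝ)
    {M M' : ℕ} (hM : 0 < M) (hM' : 0 < M') :
    ∃ A' ⊆ A, #A ≤ M * M' ^ Fintype.card ι * #A' ∧ ∀ a ∈ A', ∀ b ∈ A',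
      |((a - b : ℤ) : ℝ)| ≤ N / M ∧ ∀ i, |g i * (a - b : ℤ) - round (g i * (a - b : ℤ))| ≤ 1 / M' := by
  obtain ⟨A1, a1, b1, c1⟩ := exists_cell A (fun i a => g i * a) hM'
  have k : ∀ a ∈ A, (0 : ℝ) ≤ a ∧ (a : ℝ) < N := fun a ha => by
    exact_mod_cast mem_Ico.1 (hA ha)
  obtain ⟨A2, a2, b2, c2⟩ := exists_fibre A1 (fun a => ⌊(a : ℝ) / N * M⌋₊) (B := range M)
    fun a ha => have := k a (a1 ha); floor_mem (div_nonneg this.1 (Nat.cast_nonneg _))
      ((div_lt_one (this.1.trans_lt this.2)).2 this.2) hM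
  refine ⟨A2, a2.trans a1, b1.trans ?_, fun a ha b hb => ⟨?_, fun i => ?_⟩⟩
  · rw [mul_comm M, mul_assoc]; exact Nat.mul_le_mul_left _ (by simpa using b2)
  · have p := k a (a1 (a2 ha)); have q := k b (a1 (a2 hb))
    have n : (0 : ℝ) < N := p.1.trans_lt p.2
    have := abs_sub_le_of_floor (div_nonneg p.1 n.le) (div_nonneg q.1 n.le) hM (c2 a ha b hb)
    rw [← sub_div, abs_div, abs_of_pos n, div_le_iff₀ n] at this
    push_cast
    exact this.trans_eq (by ring)
  · push_cast; rw [mul_sub]; exact c1 a (a2 ha) b (a2 hb) i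

/-- size of a Bohr set in an interval -/
theorem card_bohr_int {ι : Type*} [Fintype ι] (W : ℕ) (g : ι → ℝ) {M : ℕ} (hM : 0 < M) :
    W + 1 ≤ M ^ Fintype.card ι * #((Icc (-W : ℤ) W).filter fun w : ℤ =>
      ∀ i, |g i * w - round (g i * w)| ≤ 1 / M) := by
  obtain ⟨A, a, b, c⟩ := exists_cell (Icc (0 : ℤ) W) (fun i a => g i * a) hM
  rw [Int.card_Icc, sub_zero, show ((W : ℤ) + 1).toNat = W + 1 by omega] at b
  obtain ⟨x, hx⟩ : A.Nonempty := card_pos.1 (Nat.pos_of_mul_pos_left ((Nat.succ_pos W).trans_le b))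
  refine b.trans (Nat.mul_le_mul_left _ (card_le_card_of_injOn (· - x) (fun y hy => ?_)
    sub_left_injective.injOn))
  have p := mem_Icc.1 (a hx); have q := mem_Icc.1 (a hy)
  beta_reduce
  refine mem_coe.2 (mem_filter.2 ⟨mem_Icc.2 ⟨by omega, by omega⟩, fun i => ?_⟩)
  push_cast; rw [mul_sub]; exact c y hy x hx i

/-- size of a Bohr set in a finite abelian group -/
theorem card_bohr {G : Type*} [AddCommGroup G] [Fintype G] (Λ : Finset (AddChar G ℂ)) {M : ℕ}
    (hM : 0 < M) : Fintype.card G ≤ M ^ #Λ *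
      #(univ.filter fun t : G => ∀ γ ∈ Λ, ‖γ t - 1‖ ≤ 2 * Real.pi / M) := by
  classical
  obtain ⟨A, -, b, c⟩ := exists_cell univ (fun (γ : Λ) (t : G) => (γ.1 t).arg / (2 * Real.pi)) hM
  rw [card_univ, Fintype.card_coe] at b
  obtain ⟨x, hx⟩ : A.Nonempty := card_pos.1 (Nat.pos_of_mul_pos_left (Fintype.card_pos.trans_le b))
  refine b.trans (Nat.mul_le_mul_left _ (card_le_card_of_injOn (· - x) (fun y hy => ?_)
    sub_left_injective.injOn))
  refine mem_coe.2 (mem_filter.2 ⟨mem_univ _, fun γ k => ?_⟩)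
  have h := c y hy x hx ⟨γ, k⟩
  have e : ∀ t, γ t = Complex.exp ((γ t).arg * Complex.I) := fun t => by
    have := Complex.norm_mul_exp_arg_mul_I (γ t)
    rw [γ.norm_apply] at this; simpa using this.symm
  have p := Real.pi_pos
  dsimp only at h ⊢
  set n := round ((γ y).arg / (2 * Real.pi) - (γ x).arg / (2 * Real.pi))
  have e2 : γ (y - x) = Complex.exp (Complex.I * ((γ y).arg - (γ x).arg - n * (2 * Real.pi) : ℝ)) := by
    rw [AddChar.map_sub_eq_div, e y, e x, ← Complex.exp_sub, ← e y, ← e x,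
      ← Complex.exp_periodic.sub_int_mul_eq n]
    congr 1; push_cast; ring
  rw [e2]
  refine Real.norm_exp_I_mul_ofReal_sub_one_le.trans ?_
  rw [Real.norm_eq_abs, show (γ y).arg - (γ x).arg - n * (2 * Real.pi) = 2 * Real.pi *
    ((γ y).arg / (2 * Real.pi) - (γ x).arg / (2 * Real.pi) - n) by field_simp, abs_mul,
    abs_of_pos (by positivity), div_eq_mul_one_div _ (M : ℝ)]
  exact mul_le_mul_of_nonneg_left h (by positivity)

end Crest.Agent.N49.To
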