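import Crest.Agent.N49.To.Bd1

/-!
# Row 49, tools (helper73): a multilinear map on fine lattices that is often near a discrete
subgroup is rational up to a small error (dimension-free)
-/

set_option autoImplicit false
open Finset MeasureTheory

namespace Crest.Agent.N49.To

open Crest.Agent.N49.La

/-- many fibres of a large set are large -/
theorem fibres {X Y : Type*} [MeasurableSpace X] [MeasurableSpace Y] (μ : Measure X)
    (ν : Measure Y) [IsProbabilityMeasure μ] [IsProbabilityMeasure ν] {A : Set (X × Y)}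
    (hA : MeasurableSet A) {δ : ℝ} (h0 : 0 ≤ δ) (h : δ ≤ (μ.prod ν).real A) :
    δ / 2 ≤ μ.real {x | δ / 2 ≤ ν.real (Prod.mk x ⁻¹' A)} := by
  set B := {x | δ / 2 ≤ ν.real (Prod.mk x ⁻¹' A)}
  have hB : MeasurableSet B :=
    measurableSet_le measurable_const (measurable_measure_prodMk_left hA).ennreal_toReal
  have a : μ.prod ν A ≤ μ B + ENNReal.ofReal (δ / 2) := by
    rw [Measure.prod_apply hA]
    refine (lintegral_mono (g := fun x => B.indicator 1 x + ENNReal.ofReal (δ / 2)) fun x => ?_).trans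
      (by rw [lintegral_add_right _ measurable_const, lintegral_indicator_one hB]; simp)
    by_cases hx : x ∈ B
    · exact le_add_right (prob_le_one.trans_eq (by simp [hx]))
    · exact le_add_left ((ENNReal.le_ofReal_iff_toReal_le (measure_ne_top _ _) (by positivity)).2
        (not_le.1 hx).le)
  have b := ENNReal.toReal_mono (by finiteness) a
  rw [ENNReal.toReal_add (by finiteness) (by finiteness), ENNReal.toReal_ofReal (by positivity)] at b
  change (μ.prod ν).real A ≤ μ.real B + _ at b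
  linarith

/-- pigeonhole on a bounded integer -/
theorem pig_nat {X : Type*} [MeasurableSpace X] (μ : Measure X) [IsProbabilityMeasure μ]
    {B : Set X} (p : ℕ → X → Prop) {Q δ : ℝ} (h0 : 0 < δ) (hQ : 1 ≤ Q) (h : δ ≤ μ.real B)
    (hp : ∀ x ∈ B, ∃ q : ℕ, 1 ≤ q ∧ (q : ℝ) ≤ Q ∧ p q x) :
    ∃ q : ℕ, 1 ≤ q ∧ (q : ℝ) ≤ Q ∧ δ / Q ≤ μ.real {x | p q x} := by
  have Q0 : 0 ≤ Q := by linarith
  have a : B ⊆ ⋃ q ∈ Icc 1 ⌊Q⌋₊, {x | p q x} := fun x hx => by
    obtain ⟨q, a, b, c⟩ := hp x hx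
    exact Set.mem_biUnion (mem_coe.2 (mem_Icc.2 ⟨a, Nat.le_floor b⟩)) c
  have b := (h.trans (measureReal_mono a (measure_ne_top _ _))).trans (measureReal_biUnion_finset_le _ _)
  obtain ⟨q, hq, c⟩ := exists_le_of_sum_le (s := Icc 1 ⌊Q⌋₊) (f := fun _ => δ / Q)
    (g := fun q => μ.real {x | p q x}) (nonempty_Icc.2 (Nat.le_floor (by simpa))) (le_trans (by
      rw [sum_const, Nat.card_Icc, Nat.add_sub_cancel, nsmul_eq_mul, mul_div_assoc',
        div_le_iff₀ (by linarith), mul_comm]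
      exact mul_le_mul_of_nonneg_left (Nat.floor_le Q0) h0.le) b)
  exact ⟨q, (mem_Icc.1 hq).1, (Nat.le_floor_iff Q0).1 (mem_Icc.1 hq).2, c⟩

/-- the size of a multilinear map relative to a weight -/
def Sz.ml {V : Type*} [AddCommGroup V] [Module ℝ V] (S : Sz V) {κ : Type*} {M : κ → Type*}
    [∀ j, AddCommGroup (M j)] (P : (∀ j, M j) → ℝ) (hP : ∀ x, 0 ≤ P x) :
    Sz (MultilinearMap ℤ M V) where
  Bd E c := ∀ x, S.Bd (E x) (c * P x)
  zero x := by simpa using S.zero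
  add h k x := by rw [add_mul]; exact S.add (h x) (k x)
  smul t h x := by rw [mul_assoc]; exact S.smul t (h x)
  mono h k x := S.mono (h x) (mul_le_mul_of_nonneg_right k (hP x))
  cl h x := S.cl fun η hη => S.mono (h (η / (P x + 1)) (by have := hP x; positivity) x) (by
    have := hP x
    rw [add_mul, div_mul_eq_mul_div, mul_div_assoc]
    exact add_le_add_right (mul_le_of_le_one_right hη.le
      (div_le_one_of_le₀ (by linarith) (by linarith))) _)

/-- **B(d)** -/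
theorem bd (d : ℕ) : ∃ C : ℕ, ∀ {ι : Fin d → Type} [∀ j, Fintype (ι j)] [∀ j, DecidableEq (ι j)]
    (N : ∀ j, Seminorm ℝ (ι j → ℝ)) (μ : ∀ j, Measure (ι j → ℤ)) [∀ j, IsProbabilityMeasure (μ j)]
    {V : Type} [AddCommGroup V] [Module ℝ V] (S : Sz V) (Z : AddSubgroup V) {σ δ ε : ℝ}
    (Γ : MultilinearMap ℤ (fun j => ι j → ℤ) V), (∀ j, QI (N j) (μ j)) →
    (∀ v ∈ Z, ∀ c < σ, S.Bd v c → v = 0) → 0 < δ → δ ≤ 1 / 2 → 0 ≤ ε →
    δ ≤ (Measure.pi μ).real {x | ∃ a ∈ Z, S.Bd (Γ x - a) ε} → (∀ j, fine (N j) ≤ δ ^ C) →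
    ε < σ * δ ^ C → ∃ q : ℕ, 1 ≤ q ∧ (q : ℝ) ≤ 1 / δ ^ C ∧
      ∃ I : MultilinearMap ℤ (fun j => ι j → ℤ) V, (∀ x, I x ∈ Z) ∧
        ∀ x, S.Bd ((q : ℝ) • Γ x - I x) (ε / δ ^ C * ∏ j, N j (ci (x j))) := by
  induction d with
  | zero =>
    refine ⟨0, fun N μ _ V _ _ S Z σ δ ε Γ _ _ h0 _ _ h _ _ => ⟨1, le_rfl, by simp, ?_⟩⟩
    obtain ⟨x, a, ha, hx⟩ := nonempty_of_measureReal_ne_zero (h0.trans_le h).ne'
    exact ⟨MultilinearMap.constOfIsEmpty ℤ _ a, fun _ => ha, fun y => by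
      simpa [Subsingleton.elim y x] using hx⟩
  | succ d ih =>
    obtain ⟨C, ih⟩ := ih
    refine ⟨8 * C + 15, fun {ι} _ _ N μ _ V _ _ S Z σ δ ε Γ hq hZ h0 h1 hε h hf hσ => ?_⟩
    obtain ⟨t, ht⟩ : ∃ t, t = δ ^ C := ⟨_, rfl⟩
    have t0 : 0 < t := ht ▸ pow_pos h0 _
    have t1 : t ≤ 1 := ht ▸ pow_le_one₀ h0.le (by linarith)
    have e1 : δ ^ (8 * C + 15) = t ^ 2 * (δ ^ 2 * t ^ 2) ^ 3 * δ ^ 9 := by rw [ht]; ring
    have e2 : (δ ^ 2) ^ C = t ^ 2 := by rw [ht]; ring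
    have d9 : δ ^ 9 ≤ 1 / 300 := (pow_le_pow_left₀ h0.le h1 9).trans (by norm_num)
    have d2 : δ ^ 2 ≤ δ / 2 := by nlinarith
    have t2 : t ^ 2 ≤ 1 := pow_le_one₀ t0.le t1
    have γ0 : 0 < δ ^ 2 * t ^ 2 := by positivity
    have γ1 : δ ^ 2 * t ^ 2 ≤ 1 := mul_le_one₀ (by linarith) (by positivity) t2
    have γ3 : (δ ^ 2 * t ^ 2) ^ 3 ≤ δ ^ 2 * t ^ 2 := pow_le_of_le_one γ0.le γ1 three_ne_zero
    have e3 : δ ^ (8 * C + 15) ≤ t ^ 2 * (δ ^ 2 * t ^ 2) ^ 3 / 300 := by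
      rw [e1, div_eq_mul_one_div]; gcongr
    have e4 : t ^ 2 * (δ ^ 2 * t ^ 2) ^ 3 ≤ t ^ 2 := mul_le_of_le_one_right (by positivity) (γ3.trans γ1)
    have σ0 : 0 < σ := pos_of_mul_pos_left (hε.trans_lt hσ) (by positivity)
    have e5 := hσ.trans_le (mul_le_mul_of_nonneg_left e3 σ0.le)
    have f1 : ∀ j, fine (N j) ≤ t ^ 2 := fun j => by linarith [hf j, sq_nonneg t]
    have mp := (measurePreserving_piFinSuccAbove μ 0).symm
    rw [← mp.measureReal_preimage MeasurableSet.of_discrete.nullMeasurableSet] at h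
    obtain ⟨q, q1, q2, hB⟩ := pig_nat (μ 0) (fun q u => ∃ a ∈ (⟨⟨⟨{I | ∀ x, I x ∈ Z}, fun a b x =>
      Z.add_mem (a x) (b x)⟩, fun _ => Z.zero_mem⟩, fun a x => Z.neg_mem (a x)⟩ :
        AddSubgroup (MultilinearMap ℤ (fun j : Fin d => ι j.succ → ℤ) V)),
      (S.ml (fun x => ∏ j, N j.succ (ci (x j))) fun x => prod_nonneg fun _ _ =>
        apply_nonneg _ _).Bd (((q : ℝ) • Γ.curryLeft.toAddMonoidHom) u - a) (ε / t ^ 2))
      (Q := 1 / t ^ 2) (pow_pos h0 2) (one_le_one_div (by positivity) t2)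
      (d2.trans (fibres _ _ MeasurableSet.of_discrete h0.le h)) fun u hu => by
        rw [← e2] at f1 ⊢
        refine ih (fun j => N j.succ) (fun j => μ j.succ) S Z (Γ.curryLeft u) (fun j => hq _) hZ
          (pow_pos h0 2) (by linarith) hε ((d2.trans hu).trans_eq ?_) (fun j => f1 _) ?_
        · congr 1; ext y
          have : (MeasurableEquiv.piFinSuccAbove (fun i => ι i → ℤ) 0).symm (u, y) = Fin.cons u y :=
            Fin.insertNth_zero (α := fun i => ι i → ℤ) u y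
          rw [Set.mem_preimage, Set.mem_preimage, this]; rfl
        · rw [e2]; nlinarith
    rw [div_div_eq_mul_div, div_one] at hB
    obtain ⟨q', a, b, I, I1, I2⟩ := bd1 _ _ (σ := σ) (fun E hE c hc hb => by
      refine Module.Basis.ext_multilinear (fun j => Pi.basisFun ℤ _) fun v => ?_
      refine hZ _ (hE _) (max c 0) (max_lt hc σ0) (S.mono (hb _) ((mul_le_mul_of_nonneg_right
        (le_max_left c 0) (prod_nonneg fun _ _ => apply_nonneg _ _)).trans (mul_le_of_le_one_right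
          (le_max_right c 0) (prod_le_one (fun _ _ => apply_nonneg _ _) fun j _ => ?_))))
      refine ((cube_le (c := 1) fun i => ?_).trans_eq (one_mul _)).trans ((f1 _).trans t2)
      simp only [ci_apply, Pi.basisFun_apply, Pi.single_apply]; split_ifs <;> simp) (hq 0) _ γ0
      (by positivity) hB (by nlinarith [hf 0, pow_pos γ0 3]) (by
        rw [mul_div_assoc', div_lt_iff₀ (by positivity)]; nlinarith)
    refine ⟨q' * q, Nat.mul_pos a q1, ?_, I.toIntLinearMap.uncurryLeft, fun x => I1 _ _, fun x => ?_⟩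
    · rw [le_div_iff₀ (by positivity)] at b q2 ⊢
      refine (mul_le_mul_of_nonneg_left (e3.trans (?_ : _ ≤ t ^ 2 * (δ ^ 2 * t ^ 2) / 3))
        (by positivity)).trans ?_
      · nlinarith [mul_le_mul_of_nonneg_left γ3 (sq_nonneg t), mul_pos (pow_pos t0 2) γ0]
      · push_cast; nlinarith [mul_le_mul b q2 (by positivity) (by norm_num)]
    · have := I2 (x 0) (Fin.tail x)
      rw [Fin.prod_univ_succ, Nat.cast_mul, mul_smul, ← mul_assoc]
      refine S.mono (by simpa [Fin.tail] using this) (mul_le_mul_of_nonneg_right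
        (mul_le_mul_of_nonneg_right (?_ : 300 * (ε / t ^ 2) / (δ ^ 2 * t ^ 2) ^ 3 ≤ _)
          (apply_nonneg _ _))
        (prod_nonneg fun _ _ => apply_nonneg _ _))
      refine le_trans (le_of_eq ?_) (div_le_div_of_nonneg_left hε (by positivity) e3)
      field_simp

end Crest.Agent.N49.To
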