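import Crest.Agent.N49.La.Mv

/-!
# Row 49, tools (helper73): local Hyers–Ulam stability modulo a separated subgroup
-/

set_option autoImplicit false
open Finset Module Filter Topology

namespace Crest.Agent.N49.To

open Crest.Agent.N49.La

/-- global Hyers–Ulam stability modulo a separated subgroup -/
theorem hyers {G V : Type*} [AddCommGroup G] [NormedAddCommGroup V] [NormedSpace ℝ V]
    [CompleteSpace V] (Z : AddSubgroup V) {σ ε : ℝ} (hZ : ∀ v ∈ Z, ‖v‖ < σ → v = 0) (h6 : 6 * ε < σ)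
    (ψ : G → V) (h : ∀ u v, ∃ a ∈ Z, ‖ψ (u + v) - ψ u - ψ v - a‖ ≤ ε) :
    ∃ θ : G → V, (∀ u, ‖ψ u - θ u‖ ≤ ε) ∧ ∀ u v, θ (u + v) - θ u - θ v ∈ Z := by
  choose a aZ ha using h
  let z : G → ℕ → V := fun u j => Nat.rec 0 (fun j y => a (2 ^ j • u) (2 ^ j • u) + 2 • y) j
  have zZ : ∀ u j, z u j ∈ Z := fun u j => by
    induction j with
    | zero => exact Z.zero_mem
    | succ j ih => exact Z.add_mem (aZ _ _) (Z.nsmul_mem ih 2)
  obtain ⟨t, ht⟩ : ∃ t : G → ℕ → V, ∀ u j, t u j = ψ (2 ^ j • u) - z u j := ⟨_, fun _ _ => rfl⟩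
  have t1 : ∀ u j, ‖t u (j + 1) - 2 • t u j‖ ≤ ε := fun u j => by
    convert ha (2 ^ j • u) (2 ^ j • u) using 2
    rw [ht, ht, pow_succ', mul_smul, two_smul, show z u (j + 1) = a _ _ + 2 • z u j from rfl]
    module
  have n2 : ∀ (j : ℕ) (y : V), ‖(1 / 2 ^ j : ℝ) • y‖ = ‖y‖ / 2 ^ j := fun j y => by
    rw [norm_smul, Real.norm_of_nonneg (by positivity), one_div, inv_mul_eq_div]
  have d : ∀ u j, dist ((1 / 2 ^ j : ℝ) • t u j) ((1 / 2 ^ (j + 1) : ℝ) • t u (j + 1)) ≤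
      ε / 2 / 2 ^ j := fun u j => by
    rw [dist_comm, dist_eq_norm, show (1 / 2 ^ (j + 1) : ℝ) • t u (j + 1) - (1 / 2 ^ j : ℝ) • t u j =
      (1 / 2 ^ (j + 1) : ℝ) • (t u (j + 1) - 2 • t u j) by
        rw [pow_succ]; match_scalars <;> field_simp, n2, div_div,
      ← pow_succ']
    exact div_le_div_of_nonneg_right (t1 u j) (by positivity)
  choose θ hθ using fun u => cauchySeq_tendsto_of_complete (cauchySeq_of_le_geometric_two (d u))
  refine ⟨θ, fun u => ?_, fun u v => ?_⟩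
  · simpa [ht, z, dist_eq_norm] using dist_le_of_le_geometric_two_of_tendsto₀ (d u) (hθ u)
  obtain ⟨A, hA⟩ : ∃ A : ℕ → V, ∀ j, A j = a (2 ^ j • u) (2 ^ j • v) - z (u + v) j + z u j + z v j :=
    ⟨_, fun _ => rfl⟩
  have AZ : ∀ j, A j ∈ Z := fun j =>
    hA j ▸ Z.add_mem (Z.add_mem (Z.sub_mem (aZ _ _) (zZ _ _)) (zZ _ _)) (zZ _ _)
  have c1 : ∀ j, ‖t (u + v) j - t u j - t v j - A j‖ ≤ ε := fun j => by
    convert ha (2 ^ j • u) (2 ^ j • v) using 2
    rw [ht, ht, ht, hA, smul_add]; abel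
  have c2 : ∀ j, A j = (2 ^ j : ℝ) • A 0 := fun j => by
    induction j with
    | zero => simp
    | succ j ih =>
      have := hZ _ (Z.sub_mem (AZ (j + 1)) (Z.nsmul_mem (AZ j) 2)) (lt_of_le_of_lt (by
        rw [show A (j + 1) - 2 • A j = t (u + v) (j + 1) - 2 • t (u + v) j - (t u (j + 1) - 2 • t u j) -
          (t v (j + 1) - 2 • t v j) - (t (u + v) (j + 1) - t u (j + 1) - t v (j + 1) - A (j + 1)) +
          (t (u + v) j - t u j - t v j - A j) + (t (u + v) j - t u j - t v j - A j) by module]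
        refine (norm_add_le_of_le (norm_add_le_of_le (norm_sub_le_of_le (norm_sub_le_of_le
          (norm_sub_le_of_le (t1 _ _) (t1 _ _)) (t1 _ _)) (c1 _)) (c1 _)) (c1 _)).trans_eq (by ring)) h6)
      rw [sub_eq_zero.1 this, ih]; module
  have l1 := (((hθ (u + v)).sub (hθ u)).sub (hθ v)).sub_const (A 0)
  have l2 := squeeze_zero_norm (fun j => (show ‖(1 / 2 ^ j : ℝ) • t (u + v) j - (1 / 2 ^ j : ℝ) • t u j -
      (1 / 2 ^ j : ℝ) • t v j - A 0‖ ≤ ε / 2 ^ j by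
    rw [show (1 / 2 ^ j : ℝ) • t (u + v) j - (1 / 2 ^ j : ℝ) • t u j - (1 / 2 ^ j : ℝ) • t v j - A 0 =
      (1 / 2 ^ j : ℝ) • (t (u + v) j - t u j - t v j - (2 ^ j : ℝ) • A 0) by
        match_scalars <;> field_simp, ← c2, n2]
    exact div_le_div_of_nonneg_right (c1 j) (by positivity)))
    (tendsto_const_nhds.div_atTop (tendsto_pow_atTop_atTop_of_one_lt one_lt_two))
  exact sub_eq_zero.1 (tendsto_nhds_unique l1 l2) ▸ AZ 0

section loc

variable {G H : Type*} [AddCommGroup G] [SeminormedAddCommGroup H] {N : G → ℝ} {ψ : G → H} {ε : ℝ}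

theorem aloc_sum (h0 : N 0 = 0) (hn : ∀ u, N (-u) = N u) (ha : ∀ u v, N (u + v) ≤ N u + N v)
    (h : ∀ u v, N u ≤ 1 → N v ≤ 1 → ‖ψ (u + v) - ψ u - ψ v‖ ≤ ε) {κ : Type*} {δ : ℝ} (hδ : 0 ≤ δ)
    (v : κ → G) (hv : ∀ j, N (v j) ≤ δ) (k : κ → ℤ) (hk : ∀ j, |k j| ≤ 1) (s : Finset κ)
    (hs : s.card * δ ≤ 1) :
    ‖ψ (∑ j ∈ s, k j • v j) - ∑ j ∈ s, k j • ψ (v j)‖ ≤ (3 * s.card + 1) * ε ∧
      N (∑ j ∈ s, k j • v j) ≤ s.card * δ := by
  classical
  have z : ‖ψ 0‖ ≤ ε := by simpa using h 0 0 (by simp [h0]) (by simp [h0])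
  have e0 : 0 ≤ ε := (norm_nonneg _).trans z
  induction s using Finset.induction_on with
  | empty => simp [z, h0]
  | insert j s hj ih =>
    rw [card_insert_of_notMem hj, Nat.cast_succ, add_mul, one_mul] at hs
    have h1 : 0 ≤ (s.card : ℝ) * δ := by positivity
    obtain ⟨h2, h3⟩ := ih (by linarith)
    have h4 : ‖ψ (k j • v j) - k j • ψ (v j)‖ ≤ 2 * ε ∧ N (k j • v j) ≤ δ := by
      have := h (v j) (-v j) (by linarith [hv j]) (by linarith [hv j, hn (v j)])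
      rw [add_neg_cancel] at this
      have h5 := norm_sub_le_of_le z this
      obtain e | e | e : k j = -1 ∨ k j = 0 ∨ k j = 1 := by have := abs_le.1 (hk j); omega
      · simp only [e, neg_smul, one_smul, hn, hv, and_true]
        exact le_of_eq_of_le (congrArg _ (by abel)) (h5.trans_eq (by ring))
      · simpa [e, h0, hδ] using z.trans (by linarith)
      · simp [e, hv, e0]
    rw [sum_insert hj, sum_insert hj, card_insert_of_notMem hj, Nat.cast_succ]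
    refine ⟨le_of_eq_of_le (congrArg _ (by abel)) ((norm_add_le_of_le (norm_add_le_of_le
      (h (k j • v j) (∑ j ∈ s, k j • v j) (by linarith [h4.2]) (by linarith)) h4.1) h2).trans_eq
        (by ring)), (ha _ _).trans (by linarith [h4.2])⟩

end loc

variable {ι : Type*} [Fintype ι] {E : Type*} [NormedAddCommGroup E] [NormedSpace ℝ E]

/-- local approximate homomorphisms on a lattice ball are global -/
theorem aloc (T : (ι → ℝ) →L[ℝ] E) (hT : Function.Injective T) {H : Type*}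
    [SeminormedAddCommGroup H] (ψ : (ι → ℤ) → H) {ε : ℝ}
    (h : ∀ u v, ‖T (ci u)‖ ≤ 1 → ‖T (ci v)‖ ≤ 1 → ‖ψ (u + v) - ψ u - ψ v‖ ≤ ε) :
    ∃ g : (ι → ℤ) → H, (∀ u v, ‖g (u + v) - g u - g v‖ ≤ 3 * (Fintype.card ι + 1) * ε) ∧
      ∀ u, ‖T (ci u)‖ ≤ 1 / (Fintype.card ι + 1) → ‖ψ u - g u‖ ≤ 3 * (Fintype.card ι + 1) * ε := by
  set δ : ℝ := 1 / (Fintype.card ι + 1)
  have hδ : 0 ≤ δ := by positivity
  have e0 : 0 ≤ ε := (norm_nonneg _).trans (h 0 0 (by simp) (by simp))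
  obtain ⟨r, v, hr, hv, hi, hc⟩ := mv ci (finite_ball T hT δ)
  rw [finrank_fintype_fun_eq_card] at hr
  have hr' : (r : ℝ) * δ ≤ 1 := by
    rw [mul_one_div, div_le_one (by positivity)]; exact_mod_cast hr.trans (Nat.le_succ _)
  have r2 : (3 * r + 1) * ε + ε + ε ≤ 3 * (Fintype.card ι + 1) * ε := by
    nlinarith [mul_le_mul_of_nonneg_right (Nat.cast_le (α := ℝ).2 hr) e0]
  have hs := fun k hk => aloc_sum (N := fun u => ‖T (ci u)‖) (by simp) (by simp)
    (fun u v => by rw [map_add, map_add]; exact norm_add_le _ _) h hδ v hv k hk univ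
    (by simpa using hr')
  simp only [card_univ, Fintype.card_fin] at hs
  set W := Submodule.span ℝ (Set.range fun i => ci (v i))
  let c : sat W → Fin r → ℝ := fun w i => hi.repr ⟨ci w, w.2⟩ i
  have c1 : ∀ w, ci w.1 = ∑ i, c w i • ci (v i) := fun w => by
    have := hi.linearCombination_repr ⟨ci w, w.2⟩
    rw [Finsupp.linearCombination_apply, Finsupp.sum_fintype _ _ (by simp)] at this
    exact this.symm
  have c2 : ∀ w w' i, c (w + w') i = c w i + c w' i := fun w w' i => by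
    have : (⟨ci (w + w' : sat W), (w + w').2⟩ : W) = ⟨ci w, w.2⟩ + ⟨ci w', w'.2⟩ :=
      Subtype.ext (map_add ci w.1 w'.1)
    simp only [c, this, map_add, Finsupp.add_apply]
  let u : sat W → ι → ℤ := fun w => w.1 - ∑ i, ⌊c w i⌋ • v i
  have u1 : ∀ w, ‖T (ci (u w))‖ ≤ 1 := fun w => by
    rw [map_sub, ci_sum, c1, ← sum_sub_distrib, map_sum]
    refine (norm_sum_le_of_le _ (n := fun _ => δ) fun i _ => ?_).trans (by simpa using hr')
    rw [← sub_smul, map_smul, norm_smul, Int.self_sub_floor, Real.norm_of_nonneg (Int.fract_nonneg _)]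
    exact (mul_le_of_le_one_left (norm_nonneg _) (Int.fract_lt_one _).le).trans (hv i)
  obtain ⟨π, hπ⟩ := retr_sat W
  refine ⟨fun w => ∑ i, ⌊c (π w) i⌋ • ψ (v i) + ψ (u (π w)), fun w w' => ?_, fun w hw => ?_⟩
  · simp only [map_add]
    generalize π w = w, π w' = w'
    have e := hs (fun i => ⌊c (w + w') i⌋ - ⌊c w i⌋ - ⌊c w' i⌋) fun i => by
      have := Int.le_floor_add (c w i) (c w' i)
      have := Int.le_floor_add_floor (c w i) (c w' i)
      rw [c2, abs_le]; omega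
    have e1 : u w + u w' = u (w + w') + ∑ i, (⌊c (w + w') i⌋ - ⌊c w i⌋ - ⌊c w' i⌋) • v i := by
      simp only [u, sub_smul, sum_sub_distrib, Submodule.coe_add]; abel
    have e2 := h _ _ (u1 w) (u1 w')
    rw [e1] at e2
    rw [← norm_neg]
    refine le_of_eq_of_le (congrArg _ ?_) ((norm_sub_le_of_le (norm_add_le_of_le
      e.1 (h _ _ (u1 (w + w')) (e.2.trans hr'))) e2).trans r2)
    simp only [sub_smul, sum_sub_distrib]; abel
  obtain ⟨a, ha, e⟩ := hc w hw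
  have hW : w ∈ sat W := by
    rw [mem_sat, e]
    exact Submodule.sum_mem _ fun i _ => W.smul_mem _ (Submodule.subset_span ⟨i, rfl⟩)
  have e1 : ∀ i, c ⟨w, hW⟩ i = a i :=
    Fintype.linearIndependent_iffₛ.1 hi _ _ ((c1 ⟨w, hW⟩).symm.trans e)
  have e2 := hs (fun i => ⌊c ⟨w, hW⟩ i⌋) fun i => by
    have := abs_le.1 (ha i)
    rw [e1, abs_le]
    exact ⟨Int.le_floor.2 (by simpa using this.1), Int.floor_le_iff.2 (by push_cast; linarith)⟩
  simp only [show π w = ⟨w, hW⟩ from hπ ⟨w, hW⟩]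
  have e3 := h _ _ (e2.2.trans hr') (u1 ⟨w, hW⟩)
  rw [show ∑ i, ⌊c ⟨w, hW⟩ i⌋ • v i + u ⟨w, hW⟩ = w by simp [u]] at e3
  exact le_of_eq_of_le (congrArg _ (by abel)) ((norm_add_le_of_le e2.1 e3).trans (by linarith))

/-- **local Hyers–Ulam stability modulo a separated subgroup** -/
theorem hu (T : (ι → ℝ) →L[ℝ] E) (hT : Function.Injective T) {V : Type*} [NormedAddCommGroup V]
    [NormedSpace ℝ V] [CompleteSpace V] (Z : AddSubgroup V) {σ ε : ℝ}
    (hZ : ∀ v ∈ Z, ‖v‖ < σ → v = 0) (e0 : 0 < ε) (hσ : 24 * (Fintype.card ι + 1) * ε < σ)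
    (ψ : (ι → ℤ) → V) (h : ∀ u v, ‖T (ci u)‖ ≤ 1 → ‖T (ci v)‖ ≤ 1 →
      ∃ a ∈ Z, ‖ψ (u + v) - ψ u - ψ v - a‖ ≤ ε) :
    ∃ g : (ι → ℤ) →+ V, ∀ u, ‖T (ci u)‖ ≤ 1 / (Fintype.card ι + 1) →
      ∃ a ∈ Z, ‖ψ u - g u - a‖ ≤ 8 * (Fintype.card ι + 1) * ε := by
  classical
  have k : ∀ y : V, ‖(y : V ⧸ Z)‖ ≤ 3 * (Fintype.card ι + 1) * ε →
      ∃ a ∈ Z, ‖y - a‖ ≤ 4 * (Fintype.card ι + 1) * ε := fun y hy => by
    obtain ⟨m, e, b⟩ := QuotientAddGroup.norm_lt_iff.1 (hy.trans_lt (show _ <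
      4 * (Fintype.card ι + 1) * ε by gcongr; norm_num))
    exact ⟨y - m, by rwa [← QuotientAddGroup.eq_iff_sub_mem, eq_comm], by simpa using b.le⟩
  obtain ⟨g, g1, g2⟩ := aloc T hT (fun u => (ψ u : V ⧸ Z)) (ε := ε) fun u v hu hv => by
    obtain ⟨a, ha, b⟩ := h u v hu hv
    refine le_of_eq_of_le (congrArg _ ?_) (QuotientAddGroup.norm_mk_le_norm.trans b)
    simp [(QuotientAddGroup.eq_zero_iff a).2 ha]
  obtain ⟨θ, t1, t2⟩ := hyers Z hZ (ε := 4 * (Fintype.card ι + 1) * ε) (by linarith)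
    (fun u => (g u).out) fun u v => k _ (by simpa using g1 u v)
  let f : (ι → ℤ) →+ V ⧸ Z := AddMonoidHom.mk' (fun u => θ u) fun u v => by
    rw [← QuotientAddGroup.mk_add, QuotientAddGroup.eq_iff_sub_mem, ← sub_sub]; exact t2 u v
  let g' : (ι → ℤ) →+ V := ⟨⟨fun u => ∑ i, u i • θ (Pi.single i 1), by simp⟩, fun u v => by
    simp [add_zsmul, sum_add_distrib]⟩
  have e : (QuotientAddGroup.mk' Z).comp g' = f := AddMonoidHom.functions_ext _ _ _ fun i x => by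
    rw [show (Pi.single i x : ι → ℤ) = x • Pi.single i 1 by rw [← Pi.single_smul]; simp, map_zsmul,
      map_zsmul]
    simp [g', f, Pi.single_apply, ite_smul]
  refine ⟨g', fun u hu => ?_⟩
  obtain ⟨a, ha, b⟩ := k (ψ u - (g u).out) (by simpa using g2 u hu)
  refine ⟨a + (θ u - g' u), Z.add_mem ha (QuotientAddGroup.eq_iff_sub_mem.1
    (DFunLike.congr_fun e u).symm), le_of_eq_of_le (congrArg _ (by abel))
      ((norm_add_le_of_le b (t1 u)).trans_eq (by ring))⟩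

end Crest.Agent.N49.To
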